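import Vale.Agent.P277.H540.Boundary
import Vale.Agent.P272.K.T4.Stmt
import Vale.Agent.P272.TOP.Q1

/-!
# P277: flips starting from a compact hyperbolic Kähler manifold

Let `X` be a compact connected Kähler manifold (for instance of dimension 4) without entire curves,
`[b]` a class which is nef outside a closed set `Z` (for instance the class of the trace `M_X` of a
nef divisor on a modification of `X` which is an isomorphism outside `Z`) and `B` an effective
`ℝ`-divisor. Then `D = K_X + B + M` is big and positive outside `Supp B ∪ Z`, and every fibre of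
positive dimension along which `-D` is ample lies in `Supp B ∪ Z`. There is no such fibre, hence no
flip, if `B = 0` and `M` is nef on `X`; in this case `D` is a Kähler class.
-/

open scoped Manifold ContDiff ComplexOrder

namespace Vale.Agent.Results.P277.HyperbolicStart

open Vale.Agent.P272.K Vale.Agent.P277.H540
open Vale.Agent.P223.H959 (IsClosed11)

theorem result (n : ℕ) (hn : 1 ≤ n) (X : Type) [TopologicalSpace X] [T2Space X] [CompactSpace X]
    [ConnectedSpace X] [ChartedSpace (Cm n) X] [IsManifold 𝓘(ℂ, Cm n) ω X]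
    (w : Chart n X → Cm n → Matrix (Fin n) (Fin n) ℂ) (hw : IsKahler w) (hX : BrodyHyperbolic n X)
    (b : Chart n X → Cm n → Matrix (Fin n) (Fin n) ℂ) (_ : IsClosed11 b) (Z : Set X)
    (hb : NefOff n w b Z) :
    (∀ (k : ℕ) (c : Fin k → ℝ) (s : Fin k → Chart n X → Cm n → ℂ)
      (σ : Fin k → Chart n X → Cm n → ℝ), IsBoundary n c s σ →
      PositiveOff n w (fun e z => formOf n c σ e z + b e z) (Supp n s ∪ Z) ∧
      ∀ F : Set X, IsNegativeFibre n (fun e z => formOf n c σ e z + b e z) F →
        F ⊆ Supp n s ∪ Z) ∧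
    PositiveOff n w b Z ∧ (∀ F : Set X, IsNegativeFibre n b F → F ⊆ Z) ∧
    (Z = ∅ → ∀ F : Set X, ¬ IsNegativeFibre n b F) := by
  obtain ⟨φ1, hφ1, hp1⟩ := Vale.Agent.P272.TOP.xam n hn X hX w hw
  have hPO := pos_adjoint hw hb hφ1 hp1
  refine ⟨fun k c s σ hB => ⟨hPO.add hB, fun F hF => main_subset hn hw (hPO.add hB) hF⟩, hPO,
    fun F hF => main_subset hn hw hPO hF, fun hZ F hF => ?_⟩
  obtain ⟨x, hx⟩ := hF.2.1
  have h1 := main_subset hn hw hPO hF hx
  rw [hZ] at h1
  exact h1

end Vale.Agent.Results.P277.HyperbolicStart
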